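import Mathlib
import Vale.Agent.P307.Main
import Vale.Agent.P307.Uniform

/-!
Eventual categoricity for abstract elementary classes in relational vocabularies that are locally
bounded, or that have, in the categoricity cardinal, a model with few hubs or of finite tree depth.
-/

namespace Vale.Agent.Results.P307.LocallyBoundedTransfer

open Cardinal Vale.Agent.P307

universe u

theorem result (lam : Cardinal.{u}) (hlam : ℵ₀ ≤ lam) :
    (lam ≤ Order.succ (2 ^ lam) ∧ ∀ (σ : Type u) (ar : σ → ℕ) (l : Cardinal.{u})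
      (K : AEC σ ar l), ℵ₀ ≤ l → #σ ≤ l → l ≤ lam →
      (∀ M : Str σ ar, K.mem M → ∀ x, #({y | Adj M x y} : Set M.U) ≤ lam) →
      (∃ κ, Order.succ (2 ^ lam) ≤ κ ∧ K.Categorical κ) →
        ∀ κ', Order.succ (2 ^ lam) ≤ κ' → K.Categorical κ') ∧
    ∃ μ : Cardinal.{u}, lam ≤ μ ∧ ∀ (σ : Type u) (ar : σ → ℕ) (l : Cardinal.{u})
      (K : AEC σ ar l), ℵ₀ ≤ l → #σ ≤ l → l ≤ lam →
      (∃ κ, μ ≤ κ ∧ K.Categorical κ ∧
        ∃ M, K.mem M ∧ #M.U = κ ∧ (FewHubs lam M ∨ FiniteTreeDepth M)) →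
        ∀ κ', μ ≤ κ' → K.Categorical κ' := by
  refine ⟨⟨(cantor lam).le.trans (Order.le_succ _),
    fun σ ar l K _ hσ hl hloc hex κ' hκ' => ?_⟩, ?_⟩
  · obtain ⟨κ, hκ, hcat⟩ := hex
    exact categorical_transfer (K.raise hl) hlam (hσ.trans hl) hloc (Order.succ_le_iff.1 hκ)
      (Order.succ_le_iff.1 hκ') hcat
  · obtain ⟨μ, hμ, h⟩ := exists_uniform lam hlam
    refine ⟨μ, hμ, fun σ ar l K _ hσ hl hex => ?_⟩
    obtain ⟨κ, hκ, hcat, hM⟩ := hex
    exact h σ ar (K.raise hl) (hσ.trans hl) κ hκ ⟨hcat, hM⟩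

end Vale.Agent.Results.P307.LocallyBoundedTransfer
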